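import Vale.Agent.N254.Ren
import Vale.Agent.P254Z.Asm.Main
import Vale.Agent.P254Z.Cert.Q0
import Vale.Agent.P254Z.Cert.Q1
import Vale.Agent.P254Z.Cert.Pair

namespace Vale.Agent.Results.P254.A0LogConcave

open MeasureTheory Vale.Agent.P254 Vale.Agent.P254.H375 Vale.Agent.N254 Vale.Agent.P254Z

/-- The equality case of the entropy form of the strong isotropic constant conjecture for
log-concave densities. -/
theorem result (n : ℕ) (f : (Fin n → ℝ) → ℝ) (h : LogConcave f) (hf : ∫ x, f x = 1) :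
    (Integrable (fun x => f x * Real.log (f x)) ∧ (cov f).PosDef) ∧
    (n + 1 / 2 * Real.log (cov f).det = entropy f ↔ IsExpAffine f) := by
  have hM := Asm.stmtMargin_of (Cert.stmtCert_of Cert.stmtPair Cert.q0A Cert.q0B Cert.q0C Cert.q0D
    Cert.stmtQ1A Cert.stmtQ1B Cert.stmtQ1C Cert.stmtQ1D)
  exact ⟨⟨integrable_flog h hf, cov_posDef h hf⟩, fun he => ent_eq hM h hf he.ge, ent_of_exp⟩

end Vale.Agent.Results.P254.A0LogConcave
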